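import Vale.Agent.P065.UB.NormDrop.Defs

/-!
# P065, upper bound, [DIM]: the normalising affine map (helper771)
-/

set_option autoImplicit false

namespace Vale.Agent.P065.H771

open Finset Vale.Agent.P065.UB Vale.Agent.P065.UB.NormDrop Vale.Agent.P065.UB.H139

theorem dt_af (α β γ δ ε : ℝ) (p q r : Pt) :
    dt (af α β γ δ ε p) (af α β γ δ ε q) (af α β γ δ ε r) = α * γ * dt p q r := by
  simp only [dt, H822.det3, af_fst, af_snd]
  ring

theorem stNorm : StNorm := by
  intro S hS
  obtain ⟨a, ha, b, hb, c, hc, hne⟩ := hS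
  have hSne : S.Nonempty := ⟨a, ha⟩
  obtain ⟨p0, hp0, hmin⟩ := S.exists_min_image (fun p : Pt => p.1) hSne
  obtain ⟨q0, hq0, hmax⟩ := S.exists_max_image (fun p : Pt => p.1) hSne
  have hL : 0 < q0.1 - p0.1 := by
    by_contra hcon
    have e : ∀ p ∈ S, p.1 = p0.1 := by
      intro p hp
      have h1 := hmin p hp
      have h2 := hmax p hp
      linarith
    apply hne
    simp only [dt, H822.det3]
    rw [e a ha, e b hb, e c hc]
    ring
  set L := q0.1 - p0.1 with hLdef
  set σ := (q0.2 - p0.2) / L with hσ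
  have hσL : σ * L = q0.2 - p0.2 := by
    rw [hσ]; field_simp
  set hh : Pt → ℝ := fun p => p.2 - p0.2 - σ * (p.1 - p0.1) with hhdef
  obtain ⟨r0, hr0, hrmax⟩ := S.exists_max_image (fun p : Pt => |hh p|) hSne
  set H := |hh r0| with hH
  have hHpos : 0 < H := by
    rcases (abs_nonneg (hh r0)).lt_or_eq with h | h
    · exact h
    · exfalso
      have e : ∀ p ∈ S, p.2 = p0.2 + σ * (p.1 - p0.1) := by
        intro p hp
        have h1 := hrmax p hp
        have h2 : hh p = 0 := by
          apply abs_eq_zero.1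
          apply le_antisymm
          · calc |hh p| ≤ |hh r0| := h1
              _ = 0 := h.symm
          · exact abs_nonneg _
        simp only [hhdef] at h2
        linarith
      apply hne
      simp only [dt, H822.det3]
      rw [e a ha, e b hb, e c hc]
      ring
  have hLne : L ≠ 0 := hL.ne'
  have hHne : H ≠ 0 := hHpos.ne'
  have hf1 : ∀ p : Pt, (af (1 / L) (-p0.1 / L) (1 / H) (-σ / H) ((σ * p0.1 - p0.2) / H) p).1
      = (p.1 - p0.1) / L := by
    intro p; rw [af_fst]; ring
  have hf2 : ∀ p : Pt, (af (1 / L) (-p0.1 / L) (1 / H) (-σ / H) ((σ * p0.1 - p0.2) / H) p).2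
      = hh p / H := by
    intro p; rw [af_snd]; simp only [hhdef]; ring
  refine ⟨1 / L, -p0.1 / L, 1 / H, -σ / H, (σ * p0.1 - p0.2) / H, by positivity, by positivity,
    ?_, ?_, ?_⟩
  · intro p hp
    rw [hf1, hf2]
    have h1 := hmin p hp
    have h2 := hmax p hp
    refine ⟨div_nonneg (by linarith) hL.le, (div_le_one hL).2 (by linarith), ?_⟩
    rw [abs_div, abs_of_pos hHpos]
    exact (div_le_one hHpos).2 (hrmax p hp)
  · refine ⟨p0, hp0, q0, hq0, r0, hr0, ?_⟩
    have h3 : dt p0 q0 r0 = L * hh r0 := by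
      simp only [dt, H822.det3, hhdef]
      linear_combination (r0.1 - p0.1) * hσL
    rw [h3, abs_mul, abs_of_pos hL]
    have : 1 / L * (1 / H) * (L * |hh r0|) = 1 := by
      rw [← hH]; field_simp
    rw [this]
  · intro p q r
    rw [dt_af, abs_mul, abs_of_pos (by positivity : (0:ℝ) < 1 / L * (1 / H))]

end Vale.Agent.P065.H771
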